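import Vale.Agent.P085.Interfaces2

/-!
# Continuity of star-algebra elements in one self-adjoint generator
-/

namespace Vale.Agent.P085

universe u

variable {H : Type u} [NormedAddCommGroup H] [InnerProductSpace ℂ H] [CompleteSpace H]

/-- (F1) -/
theorem contOut {M : VonNeumannAlgebra H} {ξ : ℕ → H} (T : Setup M ξ) : ContOut M ξ := by
  intro G hG R y hy hys hyR w hw
  suffices h : w ∈ M ∧ ∃ C : ℝ, ∀ ε : ℝ, 0 < ε → ∃ δ : ℝ, 0 < δ ∧ ∀ y' ∈ M, IsSelfAdjoint y' →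
      ‖y'‖ ≤ R → n2 ξ (y' - y) ≤ δ →
      ∃ w' ∈ StarAlgebra.adjoin ℂ (G ∪ {y'}), w' ∈ M ∧ ‖w'‖ ≤ C ∧ n2 ξ (w' - w) ≤ ε by
    obtain ⟨-, C, hC⟩ := h
    intro ε hε
    obtain ⟨δ, hδ, h⟩ := hC ε hε
    refine ⟨δ, hδ, fun y' h1 h2 h3 h4 => ?_⟩
    obtain ⟨w', hw', -, -, h5⟩ := h y' h1 h2 h3 h4
    exact ⟨w', hw', h5⟩
  clear hys hyR
  have h0 : n2 ξ (0 : H →L[ℂ] H) = 0 := by simp [n2]
  induction hw using StarAlgebra.adjoin_induction with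
  | mem a ha =>
    rcases ha with ha | ha
    · exact ⟨hG ha, ‖a‖, fun ε hε => ⟨1, one_pos, fun y' _ _ _ _ =>
        ⟨a, StarAlgebra.subset_adjoin ℂ _ (Or.inl ha), hG ha, le_rfl, by
          rw [sub_self, h0]; exact hε.le⟩⟩⟩
    · rw [Set.mem_singleton_iff] at ha
      subst ha
      exact ⟨hy, R, fun ε hε => ⟨ε, hε, fun y' h1 _ h3 h4 =>
        ⟨y', StarAlgebra.subset_adjoin ℂ _ (Or.inr rfl), h1, h3, h4⟩⟩⟩
  | algebraMap c =>
    exact ⟨algebraMap_mem M.toStarSubalgebra c, ‖algebraMap ℂ (H →L[ℂ] H) c‖, fun ε hε =>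
      ⟨1, one_pos, fun y' _ _ _ _ => ⟨_, algebraMap_mem _ c, algebraMap_mem M.toStarSubalgebra c,
        le_rfl, by rw [sub_self, h0]; exact hε.le⟩⟩⟩
  | add a b _ _ iha ihb =>
    obtain ⟨ha, C, hC⟩ := iha
    obtain ⟨hb, D, hD⟩ := ihb
    refine ⟨add_mem ha hb, C + D, fun ε hε => ?_⟩
    obtain ⟨δ₁, h1, f⟩ := hC (ε / 2) (half_pos hε)
    obtain ⟨δ₂, h2, g⟩ := hD (ε / 2) (half_pos hε)
    refine ⟨min δ₁ δ₂, lt_min h1 h2, fun y' a1 a2 a3 a4 => ?_⟩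
    obtain ⟨a', ma, a'M, a'C, a'e⟩ := f y' a1 a2 a3 (a4.trans (min_le_left _ _))
    obtain ⟨b', mb, b'M, b'D, b'e⟩ := g y' a1 a2 a3 (a4.trans (min_le_right _ _))
    refine ⟨a' + b', add_mem ma mb, add_mem a'M b'M,
      (norm_add_le _ _).trans (add_le_add a'C b'D), ?_⟩
    rw [add_sub_add_comm]
    linarith [n2_add_le T.trace.summable (a' - a) (b' - b)]
  | mul a b _ _ iha ihb =>
    obtain ⟨ha, C, hC⟩ := iha
    obtain ⟨hb, D, hD⟩ := ihb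
    refine ⟨mul_mem ha hb, C * D, fun ε hε => ?_⟩
    set D' := |D| + 1 with hD'
    set A := ‖a‖ + 1 with hA
    have hD0 : 0 < D' := by positivity
    have hA0 : 0 < A := by positivity
    obtain ⟨δ₁, h1, f⟩ := hC (ε / 2 / D') (by positivity)
    obtain ⟨δ₂, h2, g⟩ := hD (ε / 2 / A) (by positivity)
    refine ⟨min δ₁ δ₂, lt_min h1 h2, fun y' a1 a2 a3 a4 => ?_⟩
    obtain ⟨a', ma, a'M, a'C, a'e⟩ := f y' a1 a2 a3 (a4.trans (min_le_left _ _))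
    obtain ⟨b', mb, b'M, b'D, b'e⟩ := g y' a1 a2 a3 (a4.trans (min_le_right _ _))
    refine ⟨a' * b', mul_mem ma mb, mul_mem a'M b'M, (norm_mul_le _ _).trans
      (mul_le_mul a'C b'D (norm_nonneg _) ((norm_nonneg _).trans a'C)), ?_⟩
    have e : a' * b' - a * b = (a' - a) * b' + a * (b' - b) := by noncomm_ring
    rw [e]
    have u1 := T.n2_mul_le' (sub_mem a'M ha) b'M
    have u2 := n2_mul_le T.trace.summable a (b' - b)
    have v1 : n2 ξ (a' - a) * ‖b'‖ ≤ ε / 2 := by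
      refine (mul_le_mul a'e (b'D.trans ((le_abs_self D).trans (le_add_of_nonneg_right one_pos.le)))
        (norm_nonneg _) (by positivity)).trans ?_
      rw [div_mul_cancel₀ _ hD0.ne']
    have v2 : ‖a‖ * n2 ξ (b' - b) ≤ ε / 2 := by
      refine (mul_le_mul (le_add_of_nonneg_right one_pos.le) b'e (n2_nonneg _) hA0.le).trans ?_
      rw [← hA, mul_div_cancel₀ _ hA0.ne']
    linarith [n2_add_le T.trace.summable ((a' - a) * b') (a * (b' - b))]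
  | star a _ iha =>
    obtain ⟨ha, C, hC⟩ := iha
    refine ⟨star_mem ha, C, fun ε hε => ?_⟩
    obtain ⟨δ, h1, f⟩ := hC ε hε
    refine ⟨δ, h1, fun y' a1 a2 a3 a4 => ?_⟩
    obtain ⟨a', ma, a'M, a'C, a'e⟩ := f y' a1 a2 a3 a4
    refine ⟨star a', star_mem ma, star_mem a'M, by rwa [norm_star], ?_⟩
    rwa [← star_sub, T.n2_star (sub_mem a'M ha)]

end Vale.Agent.P085
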