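import Vale.Agent.P085.Closure
import Vale.Agent.P085.Corner
import Vale.Agent.P085.Toolkit.Trace
import Vale.Agent.P085.Interfaces2

/-!
# Generation from the projection and approximations of the corner ball
-/

namespace Vale.Agent.P085

open scoped InnerProductSpace Topology
open Filter

universe u

variable {H : Type u} [NormedAddCommGroup H] [InnerProductSpace ℂ H] [CompleteSpace H]
variable {ξ : ℕ → H} {M : VonNeumannAlgebra H}

private lemma smul_mem_vN (N : VonNeumannAlgebra H) {a : H →L[ℂ] H} (c : ℂ) (ha : a ∈ N) :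
    c • a ∈ N :=
  N.toStarSubalgebra.smul_mem ha c

/-- (F4) generation from `p` and trace-norm approximations of the ball of `p M (1 - p)` -/
theorem genOut (T : Setup M ξ) (hE : EquivOut M ξ) : GenOut M ξ := by
  intro p hp hhalf x hx hxsa y hy hysa hpN happ
  refine ⟨x + Complex.I • y, add_mem hx (smul_mem_vN M _ hy), fun N hg => ?_⟩
  have hs : star (x + Complex.I • y) = x - Complex.I • y := by
    rw [star_add, star_smul, hxsa.star_eq, hysa.star_eq, Complex.star_def, Complex.conj_I,
      neg_smul, sub_eq_add_neg]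
  have hg' : x - Complex.I • y ∈ N := hs ▸ star_mem hg
  have hxN : x ∈ N := by
    have h : x = (1 / 2 : ℂ) • ((x + Complex.I • y) + (x - Complex.I • y)) := by module
    rw [h]; exact smul_mem_vN N _ (add_mem hg hg')
  have hyN : y ∈ N := by
    have h : y = (-Complex.I / 2) • ((x + Complex.I • y) - (x - Complex.I • y)) := by
      match_scalars
      all_goals simp [Complex.ext_iff]
      all_goals norm_num
    rw [h]; exact smul_mem_vN N _ (sub_mem hg hg')
  have hq : trP ξ p = trP ξ (1 - p) := by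
    rw [T.trP_sub IsProj.one hp (mul_one p), T.trP_one, hhalf]; norm_num
  refine le_of_corner hE hp hq N fun a ha => ?_
  set b := p * a * (1 - p) with hb
  have hpos : (0 : ℝ) < ‖b‖ + 1 := by positivity
  set s : ℂ := ((‖b‖ + 1 : ℝ) : ℂ)
  have hsne : s ≠ 0 := Complex.ofReal_ne_zero.2 hpos.ne'
  have hbM : b ∈ M := mul_mem (mul_mem hp.1 ha) hp.one_sub.1
  have hc : s⁻¹ • b ∈ M := smul_mem_vN M _ hbM
  have hcn : ‖s⁻¹ • b‖ ≤ 1 := by
    rw [norm_smul, norm_inv, Complex.norm_real, Real.norm_of_nonneg hpos.le,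
      inv_mul_le_one₀ hpos]
    linarith
  have hpc : p * (s⁻¹ • b) = s⁻¹ • b := by
    rw [mul_smul_comm, hb, ← mul_assoc, ← mul_assoc, hp.mul_self]
  have hcq : s⁻¹ • b * (1 - p) = s⁻¹ • b := by
    rw [smul_mul_assoc, hb, mul_assoc, hp.one_sub.mul_self]
  choose w hwN hwlim using fun k : ℕ =>
    happ _ hc hcn hpc hcq (1 / ((k : ℝ) + 1)) (by positivity)
  have hlim : Tendsto (fun k => n2 ξ (w k - s⁻¹ • b)) atTop (𝓝 0) :=
    squeeze_zero (fun _ => n2_nonneg _) hwlim tendsto_one_div_add_atTop_nhds_zero_nat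
  have hcN := T.mem_of_n2_tendsto N (fun k => hwN k N hxN hyN) (fun k => hwN k M hx hy) hc hlim
  have h := smul_mem_vN N s hcN
  rwa [smul_inv_smul₀ hsne] at h

end Vale.Agent.P085
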