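import Vale.Agent.P085.Interfaces2

/-!
# Nested partitions are recovered from one self-adjoint element

All members of nested partitions commute. With weights `100⁻ᵏ` along an enumeration, the leading
projection of each tail is the limit of the iterates of `a ↦ 3 a ^ 2 - 2 a ^ 3` at that tail.
-/

namespace Vale.Agent.P085

open Filter
open scoped Topology

universe u

variable {H : Type u} [NormedAddCommGroup H] [InnerProductSpace ℂ H] [CompleteSpace H]

namespace Nest

lemma isClosed_vn (N : VonNeumannAlgebra H) : IsClosed (N : Set (H →L[ℂ] H)) := by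
  rw [← N.centralizer_centralizer]
  exact Set.isClosed_centralizer _

lemma smul_mem (N : VonNeumannAlgebra H) (c : ℂ) {a : H →L[ℂ] H} (ha : a ∈ N) : c • a ∈ N :=
  SMulMemClass.smul_mem (s := N.toStarSubalgebra) c ha

/-- one purification step -/
lemma purify {A : Type*} [Ring A] {e b : A} (he : e * e = e) (hc : Commute e b) :
    ((e + b) * (e + b) + (e + b) * (e + b) + (e + b) * (e + b)) -
      ((e + b) * (e + b) * (e + b) + (e + b) * (e + b) * (e + b)) =
      e + (b * b + b * b + b * b - (e * (b * b) + e * (b * b) + e * (b * b) + e * (b * b) +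
        e * (b * b) + e * (b * b)) - (b * b * b + b * b * b)) := by
  have h1 : b * e = e * b := hc.eq.symm
  have h2 : ∀ x, b * (e * x) = e * (b * x) := fun x => by rw [← mul_assoc, h1, mul_assoc]
  have h3 : ∀ x, e * (e * x) = e * x := fun x => by rw [← mul_assoc, he]
  simp only [mul_add, add_mul, mul_assoc, h1, h2, he, h3]
  abel

lemma recover (N : VonNeumannAlgebra H) {e b : H →L[ℂ] H} (he : e * e = e) (hn : ‖e‖ ≤ 1)
    (hc : Commute e b) (hb : ‖b‖ ≤ 1 / 30) (hN : e + b ∈ N) : e ∈ N := by
  have h : ∀ k : ℕ, ∃ d, Commute e d ∧ ‖d‖ ≤ (1 / 3) ^ k / 30 ∧ e + d ∈ N := by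
    intro k
    induction k with
    | zero => exact ⟨b, hc, by simpa using hb, hN⟩
    | succ k ih =>
      obtain ⟨d, dc, dn, dN⟩ := ih
      refine ⟨d * d + d * d + d * d - (e * (d * d) + e * (d * d) + e * (d * d) + e * (d * d) +
        e * (d * d) + e * (d * d)) - (d * d * d + d * d * d), ?_, ?_, ?_⟩
      · have h2 := dc.mul_right dc
        have h3 := (Commute.refl e).mul_right h2
        exact ((((h2.add_right h2).add_right h2).sub_right
          (((((h3.add_right h3).add_right h3).add_right h3).add_right h3).add_right h3))).sub_right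
          ((h2.mul_right dc).add_right (h2.mul_right dc))
      · have d30 : ‖d‖ ≤ 1 / 30 := dn.trans (by
          gcongr; exact pow_le_one₀ (by norm_num) (by norm_num))
        have n2' : ‖d * d‖ ≤ ‖d‖ / 30 := (norm_mul_le _ _).trans (by
          nlinarith [norm_nonneg d])
        have n3 : ‖e * (d * d)‖ ≤ ‖d‖ / 30 := (norm_mul_le _ _).trans (by
          nlinarith [norm_nonneg (d * d)])
        have n4 : ‖d * d * d‖ ≤ ‖d‖ / 900 := (norm_mul_le _ _).trans (by
          nlinarith [norm_nonneg d, norm_nonneg (d * d)])
        refine (norm_sub_le _ _).trans ?_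
        refine (add_le_add ((norm_sub_le _ _).trans (add_le_add norm_add₃_le
          ((norm_add_le _ _).trans (add_le_add ((norm_add_le _ _).trans (add_le_add
            ((norm_add_le _ _).trans (add_le_add norm_add₃_le le_rfl)) le_rfl)) le_rfl))))
          (norm_add_le _ _)).trans ?_
        rw [pow_succ]
        linarith [norm_nonneg d]
      · rw [← purify he dc]
        exact sub_mem (add_mem (add_mem (mul_mem dN dN) (mul_mem dN dN)) (mul_mem dN dN))
          (add_mem (mul_mem (mul_mem dN dN) dN) (mul_mem (mul_mem dN dN) dN))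
  choose d _ hd hdN using h
  have hd0 : Tendsto d atTop (𝓝 0) := squeeze_zero_norm hd (by
    simpa using (tendsto_pow_atTop_nhds_zero_of_lt_one (r := (1 / 3 : ℝ)) (by norm_num)
      (by norm_num)).div_const 30)
  have hlim : Tendsto (fun k => e + d k) atTop (𝓝 e) := by
    simpa using tendsto_const_nhds.add hd0
  exact (isClosed_vn N).mem_of_tendsto hlim (Eventually.of_forall hdN)

/-- commuting projections are recovered from one self-adjoint element -/
theorem exists_generator {M : VonNeumannAlgebra H} (e : ℕ → H →L[ℂ] H)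
    (he : ∀ k, IsProj M (e k)) (hc : ∀ i j, Commute (e i) (e j)) :
    ∃ x ∈ M, IsSelfAdjoint x ∧ ∀ N : VonNeumannAlgebra H, x ∈ N → ∀ k, e k ∈ N := by
  set c : ℂ := 1 / 100 with hc'
  have hcn : ‖c‖ = 1 / 100 := by simp [c]
  have hn : ∀ k, ‖e k‖ ≤ 1 := fun k => (he k).2.norm_le
  have hbd : ∀ k j, ‖c ^ j • e (k + j)‖ ≤ (1 / 100 : ℝ) ^ j := fun k j => by
    rw [norm_smul, norm_pow, hcn]
    exact mul_le_of_le_one_right (by positivity) (hn _)
  have hgeo : Summable fun j : ℕ => (1 / 100 : ℝ) ^ j :=
    summable_geometric_of_lt_one (by norm_num) (by norm_num)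
  have hs : ∀ k, Summable fun j => c ^ j • e (k + j) := fun k =>
    Summable.of_norm_bounded hgeo (hbd k)
  set t : ℕ → H →L[ℂ] H := fun k => ∑' j, c ^ j • e (k + j) with ht
  have htn : ∀ k, ‖t k‖ ≤ 100 / 99 := fun k =>
    (tsum_of_norm_bounded hgeo.hasSum (hbd k)).trans
      (by rw [tsum_geometric_of_lt_one (by norm_num) (by norm_num)]; norm_num)
  have hrec : ∀ k, t k = e k + c • t (k + 1) := fun k => by
    simp only [ht]
    rw [(hs k).tsum_eq_zero_add, pow_zero, one_smul, Nat.add_zero, ← Summable.tsum_const_smul c (hs _)]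
    congr 1
    refine tsum_congr fun j => ?_
    rw [smul_smul, ← pow_succ']
    congr 2
    omega
  refine ⟨t 0, ?_, ?_, fun N hN k => ?_⟩
  · exact (isClosed_vn M).mem_of_tendsto (hs 0).hasSum
      (Eventually.of_forall fun F => sum_mem fun j _ => smul_mem M _ (he _).1)
  · rw [IsSelfAdjoint, tsum_star]
    refine tsum_congr fun j => ?_
    rw [star_smul, (he _).2.isSelfAdjoint.star_eq]
    simp [c]
  · have key : ∀ k, t k ∈ N → e k ∈ N := fun k hk => by
      refine recover N (he k).2.isIdempotentElem (hn k)
        ((Commute.tsum_right _ fun j => (hc k (k + 1 + j)).smul_right _).smul_right c) ?_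
        (hrec k ▸ hk)
      rw [norm_smul, hcn]
      linarith [htn (k + 1)]
    have ht' : ∀ k, t k ∈ N := by
      intro k
      induction k with
      | zero => exact hN
      | succ k ih =>
        have e1 : t (k + 1) = c⁻¹ • (t k - e k) := by
          rw [hrec k, add_sub_cancel_left, smul_smul, inv_mul_cancel₀ (by simp [c]), one_smul]
        rw [e1]
        exact smul_mem N _ (sub_mem ih (key k ih))
    exact key k (ht' k)

end Nest

/-- (F3) -/
theorem nestOut (M : VonNeumannAlgebra H) : NestOut M := by
  intro n E hE hnest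
  choose π hπ using hnest
  -- a coarse part is the sum of the fine parts inside it
  have hdec : ∀ l i, ∀ X : H →L[ℂ] H, (∀ j, Commute X (E (l + 1) j)) → Commute X (E l i) := by
    intro l i X hX
    have hEli : E l i = ∑ j, E (l + 1) j * E l i := by
      rw [← Finset.sum_mul, (hE (l + 1)).total, one_mul]
    rw [hEli]
    refine Commute.sum_right _ _ _ fun j _ => ?_
    by_cases hi : π l j = i
    · subst hi
      rw [hπ l j]; exact hX j
    · rw [← hπ l j, mul_assoc, (hE l).orth _ _ hi, mul_zero]
      exact Commute.zero_right X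
  have hcomm : ∀ d l i j, Commute (E (l + d) j) (E l i) := by
    intro d
    induction d with
    | zero =>
      intro l i j
      rcases eq_or_ne j i with h | h
      · subst h; exact Commute.refl _
      · simp only [Commute, SemiconjBy, Nat.add_zero]
        rw [(hE l).orth _ _ h, (hE l).orth _ _ h.symm]
    | succ d ih =>
      intro l i j
      have h : ∀ m, l + 1 + d = m → ∀ j : Fin (n m), Commute (E m j) (E l i) := by
        rintro m rfl j
        exact hdec l i _ fun j' => ih (l + 1) j' j
      exact h (l + (d + 1)) (by omega) j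
  let e : ℕ → H →L[ℂ] H := fun k =>
    ((Encodable.decode k : Option (Σ l, Fin (n l))).map fun p => E p.1 p.2).getD 0
  have he : ∀ k, IsProj M (e k) := fun k => by
    simp only [e]
    cases (Encodable.decode k : Option (Σ l, Fin (n l))) with
    | none => exact ⟨zero_mem M, .zero _⟩
    | some p => exact (hE p.1).proj p.2
  have hc : ∀ i j, Commute (e i) (e j) := fun i j => by
    simp only [e]
    cases (Encodable.decode i : Option (Σ l, Fin (n l))) with
    | none => exact Commute.zero_left _
    | some p =>
      cases (Encodable.decode j : Option (Σ l, Fin (n l))) with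
      | none => exact Commute.zero_right _
      | some q =>
        obtain ⟨l, i⟩ := p
        obtain ⟨m, j⟩ := q
        rcases le_total l m with h | h
        · obtain ⟨d, rfl⟩ := Nat.exists_eq_add_of_le h
          exact (hcomm d l i j).symm
        · obtain ⟨d, rfl⟩ := Nat.exists_eq_add_of_le h
          exact hcomm d m j i
  obtain ⟨x, hxM, hxs, hx⟩ := Nest.exists_generator e he hc
  refine ⟨x, hxM, hxs, fun N hN l i => ?_⟩
  have h := hx N hN (Encodable.encode (⟨l, i⟩ : Σ l, Fin (n l)))
  have he' : e (Encodable.encode (⟨l, i⟩ : Σ l, Fin (n l))) = E l i := by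
    show ((Encodable.decode (Encodable.encode (⟨l, i⟩ : Σ l, Fin (n l))) :
      Option (Σ l, Fin (n l))).map fun p => E p.1 p.2).getD 0 = E l i
    rw [Encodable.encodek]
    rfl
  rwa [he'] at h

end Vale.Agent.P085
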