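import Vale.Agent.P085.Toolkit.Trace
import Vale.Agent.P085.Interfaces2

/-!
# A dense sequence in the unit ball of an off-diagonal corner
-/

namespace Vale.Agent.P085

open scoped InnerProductSpace ENNReal Topology
open Filter TopologicalSpace

universe u

variable {H : Type u} [NormedAddCommGroup H] [InnerProductSpace ℂ H] [CompleteSpace H]
variable {ξ : ℕ → H} {M : VonNeumannAlgebra H}

/-- square-summable sequences in a separable space form a separable space -/
lemma separableSpace_lp_two [SeparableSpace H] : SeparableSpace (lp (fun _ : ℕ => H) 2) := by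
  rw [← isSeparable_univ_iff]
  have hc : ∀ i, Continuous fun v : H => (lp.single 2 i v : lp (fun _ : ℕ => H) 2) := fun i =>
    (LipschitzWith.of_dist_le_mul (K := 1) fun v w => by
      rw [dist_eq_norm, ← lp.single_sub, lp.norm_single (by norm_num : (0 : ℝ≥0∞) < 2),
        NNReal.coe_one, one_mul, dist_eq_norm]).continuous
  set S : Set (lp (fun _ : ℕ => H) 2) :=
    ⋃ i, Set.range fun v : H => (lp.single 2 i v : lp (fun _ : ℕ => H) 2)
  have hS : IsSeparable S := IsSeparable.iUnion fun i => isSeparable_range (hc i)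
  refine (hS.span (R := ℂ)).closure.mono fun f _ => ?_
  refine mem_closure_of_tendsto (lp.hasSum_single (by norm_num) f)
    (Eventually.of_forall fun s => ?_)
  exact Submodule.sum_mem _ fun i _ => Submodule.subset_span (Set.mem_iUnion.2 ⟨i, f i, rfl⟩)

/-- (F2) a dense sequence in the unit ball of `p M (1 - p)`, repeated infinitely often -/
theorem sepOut [SeparableSpace H] (T : Setup M ξ) : SepOut M ξ := by
  intro p _
  have := separableSpace_lp_two (H := H)
  set B : Set (H →L[ℂ] H) := {a | a ∈ M ∧ ‖a‖ ≤ 1 ∧ p * a = a ∧ a * (1 - p) = a}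
  have h0 : (0 : H →L[ℂ] H) ∈ B := ⟨zero_mem M, by simp, by simp, by simp⟩
  obtain ⟨c, hcs, hc, hdense⟩ :=
    (IsSeparable.of_separableSpace (emb T.summable '' B)).exists_countable_dense_subset
  obtain ⟨f, hf⟩ := (hc.insert (emb T.summable 0)).exists_eq_range (Set.insert_nonempty _ _)
  have hfB : ∀ m, f m ∈ emb T.summable '' B := fun m => by
    have hm : f m ∈ insert (emb T.summable 0) c := hf ▸ Set.mem_range_self m
    rcases hm with h | h
    · exact h ▸ Set.mem_image_of_mem _ h0
    · exact hcs h
  choose g hgB hg using hfB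
  refine ⟨fun k => g (Nat.unpair k).1, fun k => hgB _, fun a ha han hpa haq ε hε N => ?_⟩
  have hmem : emb T.summable a ∈ closure c := hdense ⟨a, ⟨ha, han, hpa, haq⟩, rfl⟩
  obtain ⟨b, hb, hab⟩ := Metric.mem_closure_iff.1 hmem ε hε
  obtain ⟨m, rfl⟩ : b ∈ Set.range f := hf ▸ Set.mem_insert_of_mem _ hb
  refine ⟨Nat.pair m N, Nat.right_le_pair m N, ?_⟩
  simp only [Nat.unpair_pair]
  rw [← norm_emb T.summable, map_sub, hg, ← dist_eq_norm, dist_comm]
  exact hab.le

end Vale.Agent.P085
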