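import Vale.Agent.P085.Final.Main
import Vale.Agent.P085.Final.Cont
import Vale.Agent.P085.Final.Nest
import Vale.Agent.P085.Toolkit.Compare
import Vale.Agent.P085.Toolkit.SpectralApprox
import Vale.Agent.P085.Encode.Main
import Vale.Agent.P085.Step.Main
import Vale.Agent.P085.Step.Clip
import Vale.Agent.P085.Step.CornerEncode
import Vale.Agent.P085.Step.Decode
import Vale.Agent.P085.Flat.Mix
import Vale.Agent.P085.Flat.Flat
import Vale.Agent.P085.Final.Sep
import Vale.Agent.P085.Final.Gen

/-!
# Assembly of the modules
-/

namespace Vale.Agent.P085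

universe u

variable {H : Type u} [NormedAddCommGroup H] [InnerProductSpace ℂ H] [CompleteSpace H]
variable {M : VonNeumannAlgebra H} {ξ : ℕ → H}

/-- every module put together, given paving -/
theorem singly_of [TopologicalSpace.SeparableSpace H] (T : Setup M ξ) (hPave : PaveOut M ξ) :
    SinglyGenerated M :=
  main_of T
    (stepOut T (flatOut T (mixOut T hPave (Toolkit.adaptedOut T) (Toolkit.equivOut T))
        (Toolkit.equalPartsOut T))
      (Toolkit.equivOut T)
      (cornerEncodeOut T (unitaryApproxOut T) Encode.encodeOut)
      (clipOut T (saApproxOut M)) (decodeOut T))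
    (contOut T) (sepOut T) (nestOut M) (genOut T (Toolkit.equivOut T)) (Toolkit.subProjOut T)

end Vale.Agent.P085
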