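import Vale.Agent.P085.Interfaces2
import Vale.Agent.P085.Toolkit.Trace

/-!
# The induction: single generation from the one-step statement

At stage `l` we keep cells, an element `y` and a budget `D`: all later perturbations of `y` have
total trace norm at most `D`. The budget after decoding the `l`-th test element lies below the
continuity radius of the decoder found at that stage.
-/

namespace Vale.Agent.P085

open scoped InnerProductSpace Topology
open Filter

universe u

variable {H : Type u} [NormedAddCommGroup H] [InnerProductSpace ℂ H] [CompleteSpace H]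
variable {M : VonNeumannAlgebra H} {ξ : ℕ → H}

lemma IsPartition.reindex {ι κ : Type*} [Fintype ι] [Fintype κ] {e : H →L[ℂ] H}
    {E : ι → (H →L[ℂ] H)} (h : IsPartition M e E) (f : κ ≃ ι) :
    IsPartition M e (fun j => E (f j)) where
  proj _ := h.proj _
  orth _ _ hij := h.orth _ _ fun h' => hij (f.injective h')
  total := (f.sum_comp E).trans h.total

/-- the data kept at one stage -/
structure Stage (M : VonNeumannAlgebra H) (ξ : ℕ → H) (p : H →L[ℂ] H) where
  /-- number of cells of `p` -/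
  K : ℕ
  /-- the cells of `p` -/
  P : Fin K → (H →L[ℂ] H)
  /-- the cells of `1 - p` -/
  Q : Fin K → (H →L[ℂ] H)
  frame : Frame M ξ p P Q
  /-- the current generator -/
  y : H →L[ℂ] H
  y_mem : y ∈ M
  y_sa : IsSelfAdjoint y
  /-- bound on all later perturbations -/
  D : ℝ
  D_pos : 0 < D
  norm_le : ‖y‖ + D ≤ 1

namespace Stage

variable {p : H →L[ℂ] H} (s : Stage M ξ p)

/-- all cells of a stage -/
def cells : Fin (s.K + s.K) → (H →L[ℂ] H) := Fin.append s.P s.Q

lemma cells_partition : IsPartition M 1 s.cells where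
  proj i := by
    refine Fin.addCases (fun a => ?_) (fun a => ?_) i <;> simp only [cells, Fin.append_left,
      Fin.append_right]
    exacts [s.frame.partP.proj a, s.frame.partQ.proj a]
  orth i j := by
    have hpq : ∀ a b, s.P a * s.Q b = 0 ∧ s.Q b * s.P a = 0 := fun a b => by
      have hP := s.frame.partP
      have hQ := s.frame.partQ
      have hp : IsIdempotentElem p := by
        rw [IsIdempotentElem, ← hP.total, Finset.sum_mul]
        exact Finset.sum_congr rfl fun c _ => by rw [hP.total, hP.cell_mul c]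
      constructor
      · rw [← hP.cell_mul a, ← hQ.mul_cell b, mul_assoc, ← mul_assoc p, mul_sub, mul_one, hp.eq,
          sub_self, zero_mul, mul_zero]
      · rw [← hQ.cell_mul b, ← hP.mul_cell a, mul_assoc, ← mul_assoc (1 - p), sub_mul, one_mul,
          hp.eq, sub_self, zero_mul, mul_zero]
    refine Fin.addCases (fun a => ?_) (fun a => ?_) i <;>
      refine Fin.addCases (fun b => ?_) (fun b => ?_) j <;>
      simp only [cells, Fin.append_left, Fin.append_right, ne_eq] <;> intro hne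
    · exact s.frame.partP.orth a b fun h => hne (by rw [h])
    · exact (hpq a b).1
    · exact (hpq b a).2
    · exact s.frame.partQ.orth a b fun h => hne (by rw [h])
  total := by
    simp only [cells, Fin.sum_univ_add, Fin.append_left, Fin.append_right, s.frame.partP.total,
      s.frame.partQ.total, add_sub_cancel]

end Stage

/-- one step of the induction -/
lemma exists_next (T : Setup M ξ) (hStep : StepOut M ξ) (hCont : ContOut M ξ) {p : H →L[ℂ] H}
    (hp : IsProj M p) (hp2 : trP ξ p = 1 / 2) (s : Stage M ξ p) {z : H →L[ℂ] H} (hz : z ∈ M)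
    (hz1 : ‖z‖ ≤ 1) (hzp : p * z = z) (hzq : z * (1 - p) = z) {ε : ℝ} (hε : 0 < ε) :
    ∃ t : Stage M ξ p, t.D ≤ s.D / 2 ∧ n2 ξ (t.y - s.y) ≤ s.D / 2 ∧
      (∀ j, ∃ i, t.cells j * s.cells i = t.cells j) ∧
      ∀ y' ∈ M, IsSelfAdjoint y' → ‖y'‖ ≤ 1 → n2 ξ (y' - t.y) ≤ t.D →
        ∃ w ∈ StarAlgebra.adjoin ℂ (Set.range t.cells ∪ {y'}), n2 ξ (w - z) ≤ ε := by
  obtain ⟨r, P', Q', hr, hP, hQ, hPt, hQt, y₁, hy₁, hy₁sa, hy₁n, hy₁d, w, hw, hwz⟩ :=
    hStep p hp hp2 s.K s.P s.Q s.frame s.y s.y_mem s.y_sa z hz hz1 hzp hzq (s.D / 2)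
      (half_pos s.D_pos) (ε / 2) (half_pos hε)
  set P₁ : Fin (s.K * r) → (H →L[ℂ] H) := fun i => P' (finProdFinEquiv.symm i).1
    (finProdFinEquiv.symm i).2 with hP₁
  set Q₁ : Fin (s.K * r) → (H →L[ℂ] H) := fun i => Q' (finProdFinEquiv.symm i).1
    (finProdFinEquiv.symm i).2 with hQ₁
  have hframe : Frame M ξ p P₁ Q₁ := by
    refine ⟨Nat.mul_pos s.frame.pos hr, (s.frame.partP.refine' hP).reindex finProdFinEquiv.symm,
      (s.frame.partQ.refine' hQ).reindex finProdFinEquiv.symm, fun i => ?_, fun i => ?_⟩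
    · rw [hP₁, hPt]; push_cast; ring
    · rw [hQ₁, hQt]; push_cast; ring
  set G : Set (H →L[ℂ] H) := Set.range (Function.uncurry P') ∪ Set.range (Function.uncurry Q')
  have hGM : G ⊆ (M : Set (H →L[ℂ] H)) := by
    rintro g (⟨⟨a, i⟩, rfl⟩ | ⟨⟨a, i⟩, rfl⟩)
    exacts [((hP a).proj i).1, ((hQ a).proj i).1]
  have hn1 : ‖y₁‖ ≤ 1 := by linarith [s.norm_le, s.D_pos]
  obtain ⟨Δ, hΔ, hc⟩ := hCont G hGM 1 y₁ hy₁ hy₁sa hn1 w hw (ε / 2) (half_pos hε)
  let t : Stage M ξ p :=
    { K := s.K * r, P := P₁, Q := Q₁, frame := hframe, y := y₁, y_mem := hy₁, y_sa := hy₁sa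
      D := min (s.D / 2) Δ
      D_pos := lt_min (half_pos s.D_pos) hΔ
      norm_le := by linarith [min_le_left (s.D / 2) Δ, s.norm_le] }
  refine ⟨t, min_le_left _ _, hy₁d, fun j => ?_, fun y' hy' hysa hy'n hy'd => ?_⟩
  · refine Fin.addCases (fun i => ⟨Fin.castAdd s.K (finProdFinEquiv.symm i).1, ?_⟩)
      (fun i => ⟨Fin.natAdd s.K (finProdFinEquiv.symm i).1, ?_⟩) j <;>
      simp only [Stage.cells, Fin.append_left, Fin.append_right, t]
    exacts [(hP _).cell_mul _, (hQ _).cell_mul _]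
  · obtain ⟨w', hw', hwd⟩ := hc y' hy' hysa hy'n (hy'd.trans (min_le_right _ _))
    have hsub : G ⊆ Set.range t.cells := by
      rintro g (⟨x, rfl⟩ | ⟨x, rfl⟩)
      · refine ⟨Fin.castAdd _ (finProdFinEquiv x), (Fin.append_left P₁ Q₁ _).trans ?_⟩
        simp only [hP₁, Equiv.symm_apply_apply]; rfl
      · refine ⟨Fin.natAdd _ (finProdFinEquiv x), (Fin.append_right P₁ Q₁ _).trans ?_⟩
        simp only [hQ₁, Equiv.symm_apply_apply]; rfl
    refine ⟨w', StarAlgebra.adjoin_le
      ((Set.union_subset_union_left _ hsub).trans (StarAlgebra.subset_adjoin ℂ _)) hw', ?_⟩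
    linarith [n2_sub_le T.summable w' w z]

/-- single generation from the modules -/
theorem main_of (T : Setup M ξ) (hStep : StepOut M ξ) (hCont : ContOut M ξ) (hSep : SepOut M ξ)
    (hNest : NestOut M) (hGen : GenOut M ξ) (hSub : SubProjOut M ξ) : SinglyGenerated M := by
  obtain ⟨p, hp, -, hp2⟩ := hSub 1 IsProj.one (1 / 2) (by norm_num) (by rw [T.trP_one]; norm_num)
  obtain ⟨z, hz, hzd⟩ := hSep p hp
  have hq2 : trP ξ (1 - p) = 1 / 2 := by
    rw [T.trP_sub IsProj.one hp (mul_one p), T.trP_one, hp2]; norm_num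
  have hsingle : ∀ e : H →L[ℂ] H, IsProj M e → IsPartition M e fun _ : Fin 1 => e := fun e he =>
    ⟨fun _ => he, fun i j hij => absurd (Subsingleton.elim i j) hij, by simp⟩
  let s₀ : Stage M ξ p :=
    { K := 1, P := fun _ => p, Q := fun _ => 1 - p
      frame := ⟨Nat.one_pos, hsingle p hp, hsingle _ hp.one_sub,
        fun _ => by rw [hp2]; norm_num, fun _ => by rw [hq2]; norm_num⟩
      y := 0, y_mem := zero_mem M, y_sa := IsSelfAdjoint.zero _
      D := 1, D_pos := one_pos, norm_le := by simp }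
  have hstep : ∀ (l : ℕ) (s : Stage M ξ p), ∃ t : Stage M ξ p,
      t.D ≤ s.D / 2 ∧ n2 ξ (t.y - s.y) ≤ s.D / 2 ∧
      (∀ j, ∃ i, t.cells j * s.cells i = t.cells j) ∧
      ∀ y' ∈ M, IsSelfAdjoint y' → ‖y'‖ ≤ 1 → n2 ξ (y' - t.y) ≤ t.D →
        ∃ w ∈ StarAlgebra.adjoin ℂ (Set.range t.cells ∪ {y'}), n2 ξ (w - z l) ≤ 1 / (l + 1) :=
    fun l s => exists_next T hStep hCont hp hp2 s (hz l).1 (hz l).2.1 (hz l).2.2.1 (hz l).2.2.2
      (by positivity)
  choose f hfD hfy hfc hfw using hstep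
  let S : ℕ → Stage M ξ p := fun l => Nat.rec s₀ (fun k s => f k s) l
  have hS : ∀ l, S (l + 1) = f l (S l) := fun l => rfl
  have hdist : ∀ i k, n2 ξ ((S (k + i)).y - (S k).y) ≤ (S k).D := by
    intro i
    induction i with
    | zero => intro k; simp only [add_zero, sub_self, n2_zero T.summable]; exact (S k).D_pos.le
    | succ i ih =>
      intro k
      have h1 := ih (k + 1)
      rw [show k + 1 + i = k + (i + 1) by ring, hS k] at h1
      linarith [n2_sub_le T.summable (S (k + (i + 1))).y (f k (S k)).y (S k).y, hfy k (S k),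
        hfD k (S k)]
  have hDle : ∀ k, (S k).D ≤ (1 / 2) ^ k := by
    intro k
    induction k with
    | zero => simp [S, s₀]
    | succ k ih => rw [hS k, pow_succ]; linarith [hfD k (S k)]
  have hcauchy : ∀ ε, 0 < ε → ∃ N, ∀ m ≥ N, ∀ n ≥ N, n2 ξ ((S m).y - (S n).y) < ε := by
    intro ε hε
    obtain ⟨N, hN⟩ := exists_pow_lt_of_lt_one (half_pos hε) (show (1 : ℝ) / 2 < 1 by norm_num)
    refine ⟨N, fun m hm n hn => ?_⟩
    obtain ⟨i, rfl⟩ := Nat.exists_eq_add_of_le hm
    obtain ⟨j, rfl⟩ := Nat.exists_eq_add_of_le hn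
    have h1 := hdist i N
    have h2 := hdist j N
    rw [n2_sub_comm T.summable] at h2
    linarith [n2_sub_le T.summable (S (N + i)).y (S N).y (S (N + j)).y, hDle N]
  obtain ⟨y, hy, hy1, -, hylim⟩ := T.exists_limit (a := fun k => (S k).y) (fun k => (S k).y_mem)
    (R := 1) (fun k => by linarith [(S k).norm_le, (S k).D_pos]) hcauchy
  have hysa : IsSelfAdjoint y := by
    refine sub_eq_zero.1 (T.eq_zero_of_n2 (sub_mem (star_mem hy) hy) ?_)
    refine le_antisymm ?_ (n2_nonneg _)
    have h2 := hylim.add hylim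
    rw [add_zero] at h2
    refine ge_of_tendsto h2 (Eventually.of_forall fun k => ?_)
    have hs : n2 ξ (star y - (S k).y) = n2 ξ ((S k).y - y) := by
      rw [← (S k).y_sa.star_eq, ← star_sub, T.n2_star (sub_mem hy (S k).y_mem),
        (S k).y_sa.star_eq, n2_sub_comm T.summable]
    linarith [n2_sub_le T.summable (star y) (S k).y y]
  have htail : ∀ k, n2 ξ (y - (S k).y) ≤ (S k).D := by
    intro k
    have h1 : Tendsto (fun i => n2 ξ ((S (k + i)).y - y)) atTop (𝓝 0) :=
      hylim.comp (tendsto_atTop_mono (fun i => Nat.le_add_left i k) tendsto_id)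
    refine ge_of_tendsto (by simpa using h1.add_const (S k).D) (Eventually.of_forall fun i => ?_)
    have h2 := n2_sub_le T.summable y (S (k + i)).y (S k).y
    rw [n2_sub_comm T.summable y (S (k + i)).y] at h2
    linarith [hdist i k]
  obtain ⟨x, hxM, hxsa, hx⟩ := hNest (fun l => (S l).K + (S l).K) (fun l => (S l).cells)
    (fun l => (S l).cells_partition) fun l j => hfc l (S l) j
  refine hGen p hp hp2 x hxM hxsa y hy hysa (fun N hN => ?_) fun a ha ha1 hap haq ε hε => ?_
  · exact (Fin.append_left (fun _ : Fin 1 => p) (fun _ => 1 - p) 0) ▸ hx N hN 0 (Fin.castAdd 1 0)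
  obtain ⟨N, hN⟩ := exists_nat_one_div_lt (half_pos hε)
  obtain ⟨k, hk, hka⟩ := hzd a ha ha1 hap haq (ε / 2) (half_pos hε) N
  obtain ⟨w, hw, hwz⟩ := hfw k (S k) y hy hysa hy1 (htail (k + 1))
  refine ⟨w, fun N' hxN hyN => StarAlgebra.adjoin_le (S := N'.toStarSubalgebra) ?_ hw, ?_⟩
  · rintro g (⟨i, rfl⟩ | rfl)
    exacts [hx N' hxN (k + 1) i, hyN]
  · have h1 : 1 / ((k : ℝ) + 1) ≤ 1 / ((N : ℝ) + 1) := by gcongr
    linarith [n2_sub_le T.summable w (z k) a]

end Vale.Agent.P085
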